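import Vale.Agent.P181.RG.H460.Peak

/-!
# P181, RH [PEAK]: only the classes are independent sets of their sizes, for every strictly
decreasing sequence of sizes (helper460)
-/

set_option autoImplicit false

namespace Vale.Agent.P181.RH.H460

open Finset Vale.Agent.P181.RG Vale.Agent.P181.RG.H460

/-- **[PEAK]** for every strictly decreasing `f`. -/
theorem peak_gen {u m g T : ℕ} {f : Fin m → ℕ} (hf : StrictAnti f) (grp : Fin u → Fin g)
    (N : Lt u m f → Lt u m f → Prop) (h1 : g + 1 ≤ T) (h2 : ∀ r, T ≤ f r)
    (hcl : ∀ x y : Σ r : Fin m, Fin (f r), x.1 ≠ y.1 → N (Sum.inr x) (Sum.inr y))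
    (hfr : ∀ i j : Fin u, i ≠ j → grp i = grp j → N (Sum.inl i) (Sum.inl j))
    (hA : ∀ (i : Fin u) (r : Fin m), ∃ A : Finset (Fin (f r)), A.card = T ∧
      ∀ j ∈ A, N (Sum.inl i) (Sum.inr ⟨r, j⟩))
    (σ : Equiv.Perm (Lt u m f)) (hσ : ∀ x y, N x y → ¬ Same (σ x) (σ y)) :
    ∀ x : Σ r : Fin m, Fin (f r), Own x.1 (σ (Sum.inr x)) := by
  classical
  -- two letters of `I r` are not related
  have hind : ∀ (r : Fin m) (x y), Own r (σ x) → Own r (σ y) → ¬ N x y := fun r x y hx hy h =>
    hσ x y h ⟨r, hx, hy⟩
  have key : ∀ (n : ℕ) (r : Fin m), (r : ℕ) = n → ∀ i : Fin (f r),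
      Own r (σ (Sum.inr ⟨r, i⟩)) := by
    intro n
    induction n using Nat.strong_induction_on with
    | _ n ih =>
      intro r hrn i
      -- the classes of the letters of `I r` are at least `r`
      have hge : ∀ (r' : Fin m) (j : Fin (f r')), Own r (σ (Sum.inr ⟨r', j⟩)) →
          ¬ (r' : ℕ) < r := by
        intro r' j hj hlt
        have h9 := ih r' (hrn ▸ hlt) r' rfl j
        have h10 := own_unique hj h9
        rw [h10] at hlt
        exact lt_irrefl _ hlt
      have hmono : ∀ (r' : Fin m) (j : Fin (f r')), Own r (σ (Sum.inr ⟨r', j⟩)) → f r' ≤ f r :=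
        fun r' j hj => hf.antitone (Fin.le_def.2 (by have := hge r' j hj; omega))
      have hc := card_own r σ
      have h2r := h2 r
      -- no free letter in `I r`
      have ha : ∀ i : Fin u, ¬ Own r (σ (Sum.inl i)) := by
        intro i hi
        have hF : (univ.filter fun i : Fin u => Own r (σ (Sum.inl i))).card ≤ g := by
          have := Finset.card_le_card_of_injOn
            (s := univ.filter fun i : Fin u => Own r (σ (Sum.inl i)))
            (t := (univ : Finset (Fin g))) grp (fun _ _ => mem_coe.2 (mem_univ _)) (by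
              intro i hi j hj h
              by_contra hij
              exact hind r _ _ (mem_filter.1 (mem_coe.1 hi)).2 (mem_filter.1 (mem_coe.1 hj)).2
                (hfr i j hij h))
          rwa [card_univ, Fintype.card_fin] at this
        have hC : (univ.filter fun x : Σ r : Fin m, Fin (f r) =>
            Own r (σ (Sum.inr x))).card ≤ f r - T := by
          rcases (univ.filter fun x : Σ r : Fin m, Fin (f r) =>
            Own r (σ (Sum.inr x))).eq_empty_or_nonempty with h | ⟨⟨r', j'⟩, h⟩
          · rw [h, card_empty]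
            exact Nat.zero_le _
          · obtain ⟨A, hAc, hA'⟩ := hA i r'
            have h3 : (univ.filter fun x : Σ r : Fin m, Fin (f r) => Own r (σ (Sum.inr x))) ⊆
                Aᶜ.image fun j => (⟨r', j⟩ : Σ r : Fin m, Fin (f r)) := by
              rintro ⟨r₁, j₁⟩ hx
              have h4 := (mem_filter.1 hx).2
              have h5 : r₁ = r' := by
                by_contra hne
                exact hind r _ _ h4 (mem_filter.1 h).2 (hcl ⟨r₁, j₁⟩ ⟨r', j'⟩ hne)
              subst h5
              refine mem_image.2 ⟨j₁, mem_compl.2 fun hj => ?_, rfl⟩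
              exact hind r _ _ hi h4 (hA' _ hj)
            have h6 := (card_le_card h3).trans card_image_le
            rw [card_compl, Fintype.card_fin, hAc] at h6
            have h7 := hmono r' j' (mem_filter.1 h).2
            omega
        omega
      have h0 : (univ.filter fun i : Fin u => Own r (σ (Sum.inl i))) = ∅ :=
        filter_eq_empty_iff.2 fun i _ => ha i
      rw [h0, card_empty, zero_add] at hc
      have hne : (univ.filter fun x : Σ r : Fin m, Fin (f r) =>
          Own r (σ (Sum.inr x))).Nonempty := by
        rw [← card_pos, hc]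
        omega
      obtain ⟨⟨r', j'⟩, hj'⟩ := hne
      have hj := (mem_filter.1 hj').2
      have hsub : (univ.filter fun x : Σ r : Fin m, Fin (f r) => Own r (σ (Sum.inr x))) ⊆
          univ.image fun j => (⟨r', j⟩ : Σ r : Fin m, Fin (f r)) := by
        rintro ⟨r₁, j₁⟩ hx
        have h4 := (mem_filter.1 hx).2
        have h5 : r₁ = r' := by
          by_contra hne
          exact hind r _ _ h4 hj (hcl ⟨r₁, j₁⟩ ⟨r', j'⟩ hne)
        subst h5
        exact mem_image.2 ⟨j₁, mem_univ _, rfl⟩
      have hcr : (univ.image fun j => (⟨r', j⟩ : Σ r : Fin m, Fin (f r))).card = f r' := by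
        rw [card_image_of_injective _ fun x y h => eq_of_heq (Sigma.mk.inj h).2, card_univ,
          Fintype.card_fin]
      have h7 := card_le_card hsub
      rw [hc, hcr] at h7
      have h11 : r' = r := by
        have h8 := hge r' j' hj
        by_contra hne
        have h12 : r < r' := by
          rw [Fin.lt_def]
          have : (r' : ℕ) ≠ r := fun h => hne (Fin.ext h)
          omega
        exact absurd (hf h12) (not_lt.2 h7)
      subst h11
      have h12 := eq_of_subset_of_card_le hsub (by rw [hcr, hc])
      have h13 : (⟨r', i⟩ : Σ r : Fin m, Fin (f r)) ∈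
          univ.filter fun x : Σ r : Fin m, Fin (f r) => Own r' (σ (Sum.inr x)) := by
        rw [h12]
        exact mem_image.2 ⟨i, mem_univ _, rfl⟩
      exact (mem_filter.1 h13).2
  rintro ⟨r, i⟩
  exact key r r rfl i

end Vale.Agent.P181.RH.H460
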