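import Vale.Agent.P181.RH.Defs
import Vale.Agent.P181.RH.H460.Peak

/-!
# P181, RH [PEAK], the literal of `RH/Defs` (helper460)
-/

set_option autoImplicit false

namespace Vale.Agent.P181.RH.H460

open Vale.Agent.P181.RG

/-- **[PEAK]** -/
theorem peakRH : PeakRH := by
  intro u m T g f grp N h1 h2 hf _ hcl hfr hA σ hσ
  exact peak_gen hf grp N h1 h2 hcl hfr hA σ hσ

end Vale.Agent.P181.RH.H460
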